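import Vale.Agent.P122.H709.Sp
import Vale.Agent.P122.AN193.Kt

/-! # AN-122: `LOC2 K` from `AN.StE` (helper193, helper342, helper709) -/

open MeasureTheory Complex Set
open scoped ENNReal NNReal ContDiff FourierTransform

set_option linter.all false

namespace Vale.Agent.P122.H709

open Vale.Agent.P122.FI Vale.Agent.P122.C2
open Vale.Agent.P122.AN hiding E3

/-- the cut pieces -/
theorem stKt : StKt := by
  intro C0 hC0
  obtain ⟨C, hC, H⟩ := AN193.stKt C0 hC0
  refine ⟨max C0 C, hC.trans (le_max_right _ _), ?_⟩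
  intro Q h v hS hvc hv K n B G hB hGm hG1 hG2 hGB hG
  have hvm : ∀ k, Measurable fun ξ : AN.E3 => v (hz ξ) k := by
    intro k
    have h2 : Continuous fun ξ : AN.E3 => hz ξ := by
      unfold hz
      refine continuous_pi fun i => ?_
      fin_cases i
      · exact (by fun_prop : Continuous fun ξ : AN.E3 => ξ 0)
      · exact (by fun_prop : Continuous fun ξ : AN.E3 => ξ 1)
    exact ((continuous_apply k).comp (hvc.comp h2)).measurable
  obtain ⟨g, hD, hp, hk, he⟩ := H Q h v hS hv hvm K n B G hGm hG1 hGB hG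
  refine ⟨g, Dat_mono hD (le_max_left _ _), hp, fun M => ?_, he⟩
  intro θ u1 u2 s p U h1 h2 h3 h4
  refine (hk M θ u1 u2 s p U h1 h2 h3 h4).trans ?_
  apply ENNReal.ofReal_le_ofReal
  have hu1 : 0 < u1 := lt_of_lt_of_le (by positivity) h1
  have hu2 : 0 < u2 := hu1.trans_le h2
  gcongr
  exact le_max_right _ _

/-- [AN-122] the local estimate from the weighted estimate `AN.StE` -/
theorem loc2 (K : ℕ) (HE : AN.StE) : FI.LOC2 K := loc2_of_kt K HE stKt

end Vale.Agent.P122.H709
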