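import Vale.Agent.P122.H709.Shear
import Vale.Agent.P122.AN.Defs

/-! # AN-122 (3): `LOC2 K` from `AN.StE`, the surface of a phase and the cut pieces (helper709) -/

open MeasureTheory Complex Set
open scoped ENNReal NNReal ContDiff FourierTransform

set_option linter.all false

namespace Vale.Agent.P122.H709

open Vale.Agent.P122.FI Vale.Agent.P122.C2
open Vale.Agent.P122.AN hiding E3

/-- the surface of a phase (slopes shifted into `[1/4, 3/4]`) -/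
def StSrfPhase : Prop := ∀ h : ℝ × ℝ → ℝ, Phase h → ∃ (r C : ℝ) (v : (Fin 2 → ℝ) → Fin 2 → ℝ), 0 < r ∧ 1 ≤ C ∧
  Continuous v ∧ Srf C {y | (y 0, y 1) ∈ sq r} (fun y => tilt h (y 0, y 1)) v ∧
  ∀ y : Fin 2 → ℝ, (y 0, y 1) ∈ sq r → ∀ k, 1 / 4 ≤ v y k ∧ v y k ≤ 3 / 4

/-- the cut pieces -/
def StKt : Prop := ∀ C0 : ℝ, 1 ≤ C0 → ∃ C : ℝ, 1 ≤ C ∧ ∀ (Q : Set (Fin 2 → ℝ)) (h : (Fin 2 → ℝ) → ℝ)
  (v : (Fin 2 → ℝ) → Fin 2 → ℝ), Srf C0 Q h v → Continuous v → (∀ y ∈ Q, ∀ k, 1 / 4 ≤ v y k ∧ v y k ≤ 3 / 4) →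
  ∀ (K n : ℕ) (B : ℝ) (G : E3 → ℂ), 0 ≤ B → Measurable G → Integrable G → MemLp G 2 volume → (∀ ξ, ‖G ξ‖ ≤ B) →
    (∀ ξ, G ξ ≠ 0 → hz ξ ∈ Q ∧ |ξ 2 - h (hz ξ)| ≤ C0 / 2 ^ (2 * K * n)) →
    ∃ g : Z2 → E3 → ℂ, Dat C K n Q h v g ∧ (∀ z, pie K n g 0 0 z = 𝓕⁻ G z) ∧
      (∀ M, KTw M K n g (C * B ^ 2 * ((2:ℝ) ^ (8 * K * n))⁻¹)) ∧ (∀ M, enw M K n g ≤ ∫⁻ ξ, ‖G ξ‖ₑ ^ 2)

theorem Srf_mono {C C' : ℝ} {Q : Set (Fin 2 → ℝ)} {h : (Fin 2 → ℝ) → ℝ} {v : (Fin 2 → ℝ) → Fin 2 → ℝ}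
    (H : Srf C Q h v) (h1 : 1 ≤ C) (hC : C ≤ C') : Srf C' Q h v where
  up := fun ξ hξ η hη => (H.up ξ hξ η hη).trans (mul_le_mul_of_nonneg_right hC (norm_nonneg _))
  lo := fun ξ hξ η hη => (H.lo ξ hξ η hη).trans (mul_le_mul_of_nonneg_right hC (norm_nonneg _))
  tay := fun ξ hξ η hη => (H.tay ξ hξ η hη).trans (mul_le_mul_of_nonneg_right hC (by positivity))
  col := fun θ η hη => by
    obtain ⟨ψ, a, b, c, d⟩ := H.col θ η hη
    refine ⟨ψ, ?_, b.trans hC, c.trans hC, fun ξ hξ => (d ξ hξ).trans (mul_le_mul_of_nonneg_right hC (by positivity))⟩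
    refine le_trans ?_ a
    exact inv_anti₀ (by linarith) hC

theorem Dat_mono {C C' : ℝ} {K n : ℕ} {Q : Set (Fin 2 → ℝ)} {h : (Fin 2 → ℝ) → ℝ} {v : (Fin 2 → ℝ) → Fin 2 → ℝ}
    {g : Z2 → E3 → ℂ} (H : Dat C K n Q h v g) (hC : C ≤ C') : Dat C' K n Q h v g where
  int := H.int
  cell := H.cell
  dom := H.dom
  slope := fun θ ξ hg k => (H.slope θ ξ hg k).trans (div_le_div_of_nonneg_right hC (by positivity))
  near := fun θ ξ hg => (H.near θ ξ hg).trans (div_le_div_of_nonneg_right hC (by positivity))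

/-- pointwise bound of the extension -/
theorem Ext_bdd (h : ℝ × ℝ → ℝ) (f : ℝ × ℝ → ℂ) (r : ℝ) (hf : ∀ y, ‖f y‖ ≤ 1) (hs : ∀ y, y ∉ FI.sq r → f y = 0)
    (x : E3) : ‖FI.Ext h f x‖ ≤ volume.real (FI.sq r) := by
  rw [Ext_eq]
  refine (norm_integral_le_integral_norm _).trans ?_
  have h1 : ∫ y, (FI.sq r).indicator (fun _ => (1:ℝ)) y = volume.real (FI.sq r) := by
    rw [integral_indicator_const _ (measurableSet_sq r), smul_eq_mul, mul_one]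
  rw [← h1]
  refine integral_mono_of_nonneg (Filter.Eventually.of_forall fun _ => norm_nonneg _) ?_
    (Filter.Eventually.of_forall fun y => ?_)
  · rw [integrable_indicator_iff (measurableSet_sq r)]
    exact integrableOn_const (volume_sq_lt r).ne
  · simp only
    rw [norm_mul, norm_ec, mul_one]
    by_cases hy : y ∈ FI.sq r
    · rw [indicator_of_mem hy]; exact hf y
    · rw [indicator_of_notMem hy, hs y hy, norm_zero]

theorem measurable_Ext {h : ℝ × ℝ → ℝ} {f : ℝ × ℝ → ℂ} (hh : Continuous h) (hf : Measurable f) :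
    Measurable (FI.Ext h f) := by
  have h1 : Measurable fun z : E3 × (ℝ × ℝ) => f z.2 * ec (inner ℝ z.1 (gr h z.2)) := by
    refine (hf.comp measurable_snd).mul ?_
    apply Continuous.measurable
    refine continuous_ec.comp ?_
    exact continuous_fst.inner ((continuous_gr hh).comp continuous_snd)
  have h2 := (h1.stronglyMeasurable.integral_prod_right' (ν := (volume : Measure (ℝ × ℝ)))).measurable
  have h3 : FI.Ext h f = fun x => ∫ y, f y * ec (inner ℝ x (gr h y)) := by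
    ext x
    exact Ext_eq h f x
  rw [h3]
  exact h2

end Vale.Agent.P122.H709
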