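import Vale.Agent.P122.H709.Loc

/-! # AN-122 (3): `LOC2 K` from `AN.StE` (helper709), the proof -/

open MeasureTheory Complex Set
open scoped ENNReal NNReal ContDiff FourierTransform

set_option linter.all false

namespace Vale.Agent.P122.H709

open Vale.Agent.P122.FI Vale.Agent.P122.C2
open Vale.Agent.P122.AN hiding E3

/-- small radii -/
theorem small (K : ℕ) (h : ℝ × ℝ → ℝ) (r R0 : ℝ) (hR0 : 1 ≤ R0) : ∃ C : ℝ, 0 ≤ C ∧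
    ∀ (ε R : ℝ) (f : ℝ × ℝ → ℂ), 0 < ε → 1 ≤ R → R ≤ R0 → (∀ y, ‖f y‖ ≤ 1) → (∀ y, y ∉ FI.sq r → f y = 0) →
      ∫⁻ x in Metric.ball (0 : E3) R, ‖FI.Ext h f x‖ₑ ^ 3 ≤
        ENNReal.ofReal (C * R ^ (ε - 1)) *
          ∫⁻ x : E3, ‖FI.Ext h f x‖ₑ ^ 2 * ENNReal.ofReal (((1 + ‖x‖ / R) ^ K)⁻¹) := by
  set V0 := volume.real (FI.sq r) with hV0
  have hV0n : 0 ≤ V0 := measureReal_nonneg
  refine ⟨V0 * 2 ^ K * R0, by positivity, ?_⟩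
  intro ε R f hε hR hRR hf hs
  have hpos : 0 < R := by linarith
  have h1 : ∀ x ∈ Metric.ball (0 : E3) R, ‖FI.Ext h f x‖ₑ ^ 3 ≤
      ENNReal.ofReal (V0 * 2 ^ K * R0 * R ^ (ε - 1)) *
        (‖FI.Ext h f x‖ₑ ^ 2 * ENNReal.ofReal (((1 + ‖x‖ / R) ^ K)⁻¹)) := by
    intro x hx
    have hx' : ‖x‖ < R := by simpa using hx
    have e1 : ‖FI.Ext h f x‖ₑ ≤ ENNReal.ofReal V0 := by
      rw [← ofReal_norm]
      exact ENNReal.ofReal_le_ofReal (Ext_bdd h f r hf hs x)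
    have e2 : (1:ℝ) ≤ 2 ^ K * ((1 + ‖x‖ / R) ^ K)⁻¹ := by
      rw [← div_eq_mul_inv, one_le_div (by positivity)]
      apply pow_le_pow_left₀ (by positivity)
      have : ‖x‖ / R ≤ 1 := by rw [div_le_one hpos]; exact hx'.le
      linarith
    have e3 : 1 ≤ R0 * R ^ (ε - 1) := by
      have : R * R ^ (ε - 1) = R ^ ε := by
        rw [← Real.rpow_one_add' hpos.le (by linarith : (1:ℝ) + (ε - 1) ≠ 0)]
        congr 1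
        ring
      have h2 : 1 ≤ R ^ ε := Real.one_le_rpow hR hε.le
      have h3 : 0 ≤ R ^ (ε - 1) := by positivity
      nlinarith
    have e4 : V0 ≤ V0 * 2 ^ K * R0 * R ^ (ε - 1) * ((1 + ‖x‖ / R) ^ K)⁻¹ := by
      have : V0 * 2 ^ K * R0 * R ^ (ε - 1) * ((1 + ‖x‖ / R) ^ K)⁻¹ =
        V0 * ((2 ^ K * ((1 + ‖x‖ / R) ^ K)⁻¹) * (R0 * R ^ (ε - 1))) := by ring
      rw [this]
      have : 1 ≤ (2 ^ K * ((1 + ‖x‖ / R) ^ K)⁻¹) * (R0 * R ^ (ε - 1)) := by nlinarith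
      nlinarith
    have e5 : ENNReal.ofReal V0 ≤ ENNReal.ofReal (V0 * 2 ^ K * R0 * R ^ (ε - 1)) *
        ENNReal.ofReal (((1 + ‖x‖ / R) ^ K)⁻¹) := by
      rw [← ENNReal.ofReal_mul (by positivity)]
      exact ENNReal.ofReal_le_ofReal e4
    calc ‖FI.Ext h f x‖ₑ ^ 3 = ‖FI.Ext h f x‖ₑ ^ 2 * ‖FI.Ext h f x‖ₑ := by ring
      _ ≤ ‖FI.Ext h f x‖ₑ ^ 2 * (ENNReal.ofReal (V0 * 2 ^ K * R0 * R ^ (ε - 1)) *
        ENNReal.ofReal (((1 + ‖x‖ / R) ^ K)⁻¹)) := by gcongr; exact e1.trans e5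
      _ = _ := by ring
  calc ∫⁻ x in Metric.ball (0 : E3) R, ‖FI.Ext h f x‖ₑ ^ 3 ≤
      ∫⁻ x in Metric.ball (0 : E3) R, ENNReal.ofReal (V0 * 2 ^ K * R0 * R ^ (ε - 1)) *
        (‖FI.Ext h f x‖ₑ ^ 2 * ENNReal.ofReal (((1 + ‖x‖ / R) ^ K)⁻¹)) :=
        setLIntegral_mono' Metric.isOpen_ball.measurableSet h1
    _ ≤ ∫⁻ x : E3, ENNReal.ofReal (V0 * 2 ^ K * R0 * R ^ (ε - 1)) *
        (‖FI.Ext h f x‖ₑ ^ 2 * ENNReal.ofReal (((1 + ‖x‖ / R) ^ K)⁻¹)) := setLIntegral_le_lintegral _ _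
    _ = _ := lintegral_const_mul' _ _ ENNReal.ofReal_ne_top

/-- the scale -/
theorem scale {A R : ℝ} (hA : 1 < A) (hR : 1 ≤ R) : ∃ n : ℕ, 2 * R ≤ A ^ n ∧ A ^ n ≤ 2 * A * R := by
  obtain ⟨n, h1, h2⟩ := exists_nat_pow_near (x := 2 * R) (y := A) (by linarith) hA
  refine ⟨n + 1, h2.le, ?_⟩
  rw [pow_succ]
  nlinarith

/-- the function `gR` lives near the graph over `Q` -/
theorem gR_near {h : ℝ × ℝ → ℝ} {f : ℝ × ℝ → ℂ} {r R C1 : ℝ} {v : (Fin 2 → ℝ) → Fin 2 → ℝ} (hr : 0 < r)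
    (hC1 : 1 ≤ C1) (hR : 0 < R) (hR1 : 1 ≤ R) (hRr : 1 / (8 * R) ≤ r / 2)
    (H : Srf C1 {y | (y 0, y 1) ∈ FI.sq r} (fun y => tilt h (y 0, y 1)) v)
    (hv : ∀ y : Fin 2 → ℝ, (y 0, y 1) ∈ FI.sq r → ∀ k, 1 / 4 ≤ v y k ∧ v y k ≤ 3 / 4)
    (hs : ∀ y, y ∉ FI.sq (r / 2) → f y = 0) {ξ : E3} (hξ : gR (tilt h) f R ξ ≠ 0) :
    hz ξ ∈ {y : Fin 2 → ℝ | (y 0, y 1) ∈ FI.sq r} ∧ |ξ 2 - tilt h ((hz ξ) 0, (hz ξ) 1)| ≤ C1 / R := by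
  obtain ⟨y, hy, hd⟩ := gR_supp hR hs hξ
  have e0 : |ξ 0 - y.1| ≤ 1 / (8 * R) := by
    have := (PiLp.norm_apply_le (ξ - gr (tilt h) y) 0).trans hd
    simpa [gr] using this
  have e1 : |ξ 1 - y.2| ≤ 1 / (8 * R) := by
    have := (PiLp.norm_apply_le (ξ - gr (tilt h) y) 1).trans hd
    simpa [gr] using this
  have e2 : |ξ 2 - tilt h y| ≤ 1 / (8 * R) := by
    have := (PiLp.norm_apply_le (ξ - gr (tilt h) y) 2).trans hd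
    simpa [gr] using this
  have hyb : (-(r / 2) ≤ y.1 ∧ y.1 ≤ r / 2) ∧ (-(r / 2) ≤ y.2 ∧ y.2 ≤ r / 2) := hy
  have hd8 : 1 / (8 * R) ≤ 1 := by
    rw [div_le_one (by positivity)]
    linarith
  have hd0 : 0 < 1 / (8 * R) := by positivity
  set d := 1 / (8 * R) with hdd
  have hxi : hz ξ ∈ {y : Fin 2 → ℝ | (y 0, y 1) ∈ FI.sq r} := by
    show ((hz ξ) 0, (hz ξ) 1) ∈ FI.sq r
    have a0 : (hz ξ) 0 = ξ 0 := rfl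
    have a1 : (hz ξ) 1 = ξ 1 := rfl
    rw [a0, a1]
    rw [abs_le] at e0 e1
    refine ⟨⟨?_, ?_⟩, ⟨?_, ?_⟩⟩ <;> simp only <;> linarith [hyb.1.1, hyb.1.2, hyb.2.1, hyb.2.2]
  refine ⟨hxi, ?_⟩
  have hyQ : (![y.1, y.2] : Fin 2 → ℝ) ∈ {y : Fin 2 → ℝ | (y 0, y 1) ∈ FI.sq r} := by
    show (y.1, y.2) ∈ FI.sq r
    refine ⟨⟨?_, ?_⟩, ⟨?_, ?_⟩⟩ <;> simp only <;> linarith [hyb.1.1, hyb.1.2, hyb.2.1, hyb.2.2]
  have ht := H.tay (hz ξ) hxi ![y.1, y.2] hyQ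
  have hn : ‖hz ξ - ![y.1, y.2]‖ ≤ d := by
    rw [pi_norm_le_iff_of_nonneg hd0.le]
    intro i
    fin_cases i
    · exact e0
    · exact e1
  have b0 := hv ![y.1, y.2] hyQ 0
  have b1 := hv ![y.1, y.2] hyQ 1
  have a0 : (hz ξ) 0 - (![y.1, y.2] : Fin 2 → ℝ) 0 = ξ 0 - y.1 := rfl
  have a1 : (hz ξ) 1 - (![y.1, y.2] : Fin 2 → ℝ) 1 = ξ 1 - y.2 := rfl
  have a2 : tilt h ((![y.1, y.2] : Fin 2 → ℝ) 0, (![y.1, y.2] : Fin 2 → ℝ) 1) = tilt h y := rfl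
  rw [a0, a1, a2] at ht
  have hn2 : ‖hz ξ - ![y.1, y.2]‖ ^ 2 ≤ d := by
    have h0 := norm_nonneg (hz ξ - ![y.1, y.2])
    nlinarith
  have hC1p : 0 < C1 := by linarith
  have ht2 : C1 * ‖hz ξ - ![y.1, y.2]‖ ^ 2 ≤ C1 * d := mul_le_mul_of_nonneg_left hn2 hC1p.le
  set v0 := v ![y.1, y.2] 0
  set v1 := v ![y.1, y.2] 1
  have m0 : |v0 * (ξ 0 - y.1)| ≤ d := by
    rw [abs_mul, abs_of_nonneg (by linarith [b0.1])]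
    nlinarith [abs_nonneg (ξ 0 - y.1), b0.1, b0.2]
  have m1 : |v1 * (ξ 1 - y.2)| ≤ d := by
    rw [abs_mul, abs_of_nonneg (by linarith [b1.1])]
    nlinarith [abs_nonneg (ξ 1 - y.2), b1.1, b1.2]
  have key : |ξ 2 - tilt h ((hz ξ) 0, (hz ξ) 1)| ≤ 4 * C1 * d := by
    rw [abs_le] at ht e2 m0 m1 ⊢
    constructor <;> nlinarith
  refine key.trans ?_
  rw [hdd]
  have : 4 * C1 * (1 / (8 * R)) = C1 / R / 2 := by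
    field_simp
    ring
  rw [this]
  have : 0 < C1 / R := by positivity
  linarith

end Vale.Agent.P122.H709
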