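import Vale.Agent.P122.H709.Loc2

/-! # AN-122 (3): `LOC2 K` from `AN.StE` (helper709), lower and upper bounds, main theorem -/

open MeasureTheory Complex Set
open scoped ENNReal NNReal ContDiff FourierTransform

set_option linter.all false

namespace Vale.Agent.P122.H709

open Vale.Agent.P122.FI Vale.Agent.P122.C2
open Vale.Agent.P122.AN hiding E3

/-- the inverse Fourier transform of `gR` -/
theorem inv_gR {h : ℝ × ℝ → ℝ} {f : ℝ × ℝ → ℂ} {r R : ℝ} (hh : Continuous h) (hf : Measurable f) (hR : 0 < R)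
    (hs : ∀ y, y ∉ FI.sq r → f y = 0) (hB : ∀ y, ‖f y‖ ≤ 1) (z : E3) :
    𝓕⁻ (gR h f R) z = ph (R⁻¹ • z) * FI.Ext h f z := by
  rw [inv_eq_int, ← gR_fourier hh hf hR hs hB z]
  rfl

theorem coord_le (z : E3) (i : Fin 3) : |z i| ≤ ‖z‖ := PiLp.norm_apply_le z i

/-- the lower bound -/
theorem low {h : ℝ × ℝ → ℝ} {f : ℝ × ℝ → ℂ} {r R Rn : ℝ} (hh : Continuous h) (hf : Measurable f)
    (hf1 : ∀ y, ‖f y‖ ≤ 1) (hs : ∀ y, y ∉ FI.sq r → f y = 0) (hR : 0 < R) (hRn : 2 * R ≤ Rn) :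
    ∫⁻ x in Metric.ball (0 : E3) R, ‖FI.Ext h f x‖ₑ ^ 3 ≤
      8 * ∫⁻ z in {z : E3 | ∀ i, |z i| ≤ Rn}, ‖𝓕⁻ (gR (tilt h) f Rn) z‖ₑ ^ 3 := by
  have hRn0 : 0 < Rn := by linarith
  have hm : Measurable fun x : E3 => (Metric.ball (0 : E3) R).indicator (fun x => ‖FI.Ext h f x‖ₑ ^ 3) x :=
    ((measurable_Ext hh hf).enorm.pow_const 3).indicator Metric.isOpen_ball.measurableSet
  rw [← lintegral_indicator Metric.isOpen_ball.measurableSet, ← lintegral_shr _ hm]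
  have hS : MeasurableSet {z : E3 | ∀ i, |z i| ≤ Rn} := by
    have : {z : E3 | ∀ i, |z i| ≤ Rn} = ⋂ i, {z : E3 | |z i| ≤ Rn} := by
      ext z
      simp
    rw [this]
    exact MeasurableSet.iInter fun i => (isClosed_le (f := fun z : E3 => |z i|) (by fun_prop) continuous_const).measurableSet
  rw [← lintegral_indicator hS, ← lintegral_const_mul' _ _ (by norm_num)]
  refine lintegral_mono fun z => ?_
  simp only
  by_cases hz : shr z ∈ Metric.ball (0 : E3) R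
  · rw [indicator_of_mem hz]
    have h1 : ‖shr z‖ < R := by simpa using hz
    have h2 : ‖z‖ ≤ Rn := by
      have := norm_le_shr z
      linarith
    have h3 : z ∈ {z : E3 | ∀ i, |z i| ≤ Rn} := fun i => (coord_le z i).trans h2
    rw [indicator_of_mem h3, inv_gR (continuous_tilt hh) hf hRn0 hs hf1 z, Ext_tilt, enorm_mul, mul_pow, ← mul_assoc]
    have h4 : ‖(Rn⁻¹ • z : E3)‖ ≤ 1 := by
      rw [norm_smul, Real.norm_of_nonneg (by positivity), inv_mul_le_iff₀ hRn0, mul_one]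
      exact h2
    have h5 := ph_lower h4
    have h6 : (1 : ℝ≥0∞) ≤ 8 * ‖ph (Rn⁻¹ • z)‖ₑ ^ 3 := by
      have h7 : (1:ℝ) ≤ 8 * ‖ph (Rn⁻¹ • z)‖ ^ 3 := by
        have : (1 / 2 : ℝ) ^ 3 ≤ ‖ph (Rn⁻¹ • z)‖ ^ 3 := pow_le_pow_left₀ (by norm_num) h5 3
        linarith
      calc (1 : ℝ≥0∞) = ENNReal.ofReal 1 := ENNReal.ofReal_one.symm
        _ ≤ ENNReal.ofReal (8 * ‖ph (Rn⁻¹ • z)‖ ^ 3) := ENNReal.ofReal_le_ofReal h7
        _ = 8 * ‖ph (Rn⁻¹ • z)‖ₑ ^ 3 := by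
          rw [ENNReal.ofReal_mul (by norm_num), ENNReal.ofReal_pow (norm_nonneg _), ofReal_norm]
          norm_num
    calc ‖FI.Ext h f (shr z)‖ₑ ^ 3 = 1 * ‖FI.Ext h f (shr z)‖ₑ ^ 3 := (one_mul _).symm
      _ ≤ 8 * ‖ph (Rn⁻¹ • z)‖ₑ ^ 3 * ‖FI.Ext h f (shr z)‖ₑ ^ 3 := mul_le_mul_left h6 _
  · rw [indicator_of_notMem hz]
    exact zero_le

/-- the upper bound of the energy -/
theorem upp (K : ℕ) : ∃ CE : ℝ, 0 ≤ CE ∧ ∀ (h : ℝ × ℝ → ℝ) (f : ℝ × ℝ → ℂ) (r R Rn A : ℝ), Continuous h →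
    Measurable f → (∀ y, ‖f y‖ ≤ 1) → (∀ y, y ∉ FI.sq r → f y = 0) → 0 < R → 0 < Rn → 1 ≤ A → Rn ≤ 2 * A * R →
    ∫⁻ ξ, ‖gR (tilt h) f Rn ξ‖ₑ ^ 2 ≤ ENNReal.ofReal (CE * (4 * A) ^ K) *
      ∫⁻ x : E3, ‖FI.Ext h f x‖ₑ ^ 2 * ENNReal.ofReal (((1 + ‖x‖ / R) ^ K)⁻¹) := by
  obtain ⟨CE, hCE, hE⟩ := gR_energy K
  refine ⟨CE, hCE, ?_⟩
  intro h f r R Rn A hh hf hf1 hs hR hRn hA hRA
  refine (hE (tilt h) f r Rn 1 (continuous_tilt hh) hf hRn hs hf1).trans ?_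
  rw [ENNReal.ofReal_mul hCE, mul_assoc]
  refine mul_le_mul_right ?_ _
  have hm : Measurable fun x : E3 => ‖FI.Ext h f x‖ₑ ^ 2 * ENNReal.ofReal (((1 + ‖x‖ / R) ^ K)⁻¹) := by
    refine ((measurable_Ext hh hf).enorm.pow_const 2).mul ?_
    refine ENNReal.measurable_ofReal.comp ?_
    fun_prop
  rw [← lintegral_shr _ hm, ← lintegral_const_mul' _ _ ENNReal.ofReal_ne_top]
  refine lintegral_mono fun x => ?_
  simp only
  rw [Ext_tilt]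
  have h1 : ((1 + ‖x‖ / Rn) ^ K)⁻¹ ≤ (4 * A) ^ K * ((1 + ‖shr x‖ / R) ^ K)⁻¹ := by
    have h2 : 1 + ‖shr x‖ / R ≤ 4 * A * (1 + ‖x‖ / Rn) := by
      have h3 : ‖shr x‖ / R ≤ 4 * A * (‖x‖ / Rn) := by
        rw [div_le_iff₀ hR]
        have h4 : ‖x‖ ≤ ‖x‖ / Rn * (2 * A * R) := by
          calc ‖x‖ = ‖x‖ / Rn * Rn := by field_simp
            _ ≤ ‖x‖ / Rn * (2 * A * R) := by gcongr
        have h5 := norm_shr_le x
        nlinarith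
      nlinarith
    have h6 : (1 + ‖shr x‖ / R) ^ K ≤ (4 * A) ^ K * (1 + ‖x‖ / Rn) ^ K := by
      rw [← mul_pow]
      exact pow_le_pow_left₀ (by positivity) h2 K
    have h7 : 0 < (1 + ‖shr x‖ / R) ^ K := by positivity
    have h8 : 0 < (1 + ‖x‖ / Rn) ^ K := by positivity
    rw [inv_le_iff_one_le_mul₀ h8]
    calc (1:ℝ) = (1 + ‖shr x‖ / R) ^ K * ((1 + ‖shr x‖ / R) ^ K)⁻¹ := (mul_inv_cancel₀ h7.ne').symm
      _ ≤ (4 * A) ^ K * (1 + ‖x‖ / Rn) ^ K * ((1 + ‖shr x‖ / R) ^ K)⁻¹ := by gcongr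
      _ = _ := by ring
  calc ‖FI.Ext h f (shr x)‖ₑ ^ 2 * ENNReal.ofReal (((1 + ‖x‖ / Rn) ^ K)⁻¹)
      ≤ ‖FI.Ext h f (shr x)‖ₑ ^ 2 * ENNReal.ofReal ((4 * A) ^ K * ((1 + ‖shr x‖ / R) ^ K)⁻¹) := by gcongr
    _ = _ := by
      rw [ENNReal.ofReal_mul (by positivity)]
      ring

/-- the numbers -/
theorem nums {C3 C4 B0 ε R : ℝ} {K n : ℕ} (hC3 : 0 ≤ C3) (hC4 : 0 ≤ C4) (hB0 : 0 ≤ B0) (hε : 0 < ε) (hR : 1 ≤ R)
    (hRn : R ≤ 2 ^ (2 * K * n)) :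
    C4 * 2 ^ (min ε 1 * (K * n)) * Real.sqrt (C3 * (B0 * 2 ^ (2 * K * n)) ^ 2 * ((2:ℝ) ^ (8 * K * n))⁻¹) ≤
      C4 * Real.sqrt C3 * B0 * R ^ (ε - 1) := by
  set S : ℝ := (2:ℝ) ^ (2 * K * n) with hS
  have hS0 : 0 < S := by positivity
  have e8 : (2:ℝ) ^ (8 * K * n) = S ^ 4 := by
    rw [hS, ← pow_mul]
    congr 1
    ring
  have e1 : Real.sqrt (C3 * (B0 * S) ^ 2 * ((2:ℝ) ^ (8 * K * n))⁻¹) = Real.sqrt C3 * B0 * S⁻¹ := by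
    rw [e8]
    have : C3 * (B0 * S) ^ 2 * (S ^ 4)⁻¹ = C3 * (B0 * S⁻¹) ^ 2 := by
      field_simp
    rw [this, Real.sqrt_mul hC3, Real.sqrt_sq (by positivity)]
    ring
  have e2 : (2:ℝ) ^ (min ε 1 * (K * n)) = S ^ (min ε 1 / 2) := by
    rw [hS, ← Real.rpow_natCast, ← Real.rpow_mul (by norm_num)]
    congr 1
    push_cast
    ring
  rw [e1, e2]
  have e3 : S ^ (min ε 1 / 2) * S⁻¹ = S ^ (min ε 1 / 2 - 1) := by
    rw [Real.rpow_sub_one hS0.ne']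
    rfl
  have hmin : min ε 1 ≤ 1 := min_le_right _ _
  have hmin' : min ε 1 ≤ ε := min_le_left _ _
  have hmin0 : 0 < min ε 1 := lt_min hε one_pos
  have e4 : S ^ (min ε 1 / 2 - 1) ≤ R ^ (ε - 1) := by
    calc S ^ (min ε 1 / 2 - 1) ≤ R ^ (min ε 1 / 2 - 1) :=
          Real.rpow_le_rpow_of_nonpos (by linarith) hRn (by linarith)
      _ ≤ R ^ (ε - 1) := Real.rpow_le_rpow_of_exponent_le hR (by linarith)
  calc C4 * S ^ (min ε 1 / 2) * (Real.sqrt C3 * B0 * S⁻¹) =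
      C4 * Real.sqrt C3 * B0 * (S ^ (min ε 1 / 2) * S⁻¹) := by ring
    _ = C4 * Real.sqrt C3 * B0 * S ^ (min ε 1 / 2 - 1) := by rw [e3]
    _ ≤ C4 * Real.sqrt C3 * B0 * R ^ (ε - 1) := by gcongr

end Vale.Agent.P122.H709
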