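import Vale.Agent.P122.H709.Loc3

/-! # AN-122 (3): `LOC2 K` from `AN.StE` (helper709), main theorem -/

open MeasureTheory Complex Set
open scoped ENNReal NNReal ContDiff FourierTransform

set_option linter.all false

namespace Vale.Agent.P122.H709

open Vale.Agent.P122.FI Vale.Agent.P122.C2
open Vale.Agent.P122.AN hiding E3

/-- the radii `R ≥ R0` -/
theorem large (K : ℕ) {h : ℝ × ℝ → ℝ} (hh : Continuous h) {r1 C1 : ℝ} {v : (Fin 2 → ℝ) → Fin 2 → ℝ} (hr1 : 0 < r1)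
    (hC1 : 1 ≤ C1) (hvc : Continuous v)
    (hS : Srf C1 {y | (y 0, y 1) ∈ FI.sq r1} (fun y => tilt h (y 0, y 1)) v)
    (hv : ∀ y : Fin 2 → ℝ, (y 0, y 1) ∈ FI.sq r1 → ∀ k, 1 / 4 ≤ v y k ∧ v y k ≤ 3 / 4)
    (HE : AN.StE) (HK : StKt) {ε : ℝ} (hε : 0 < ε) : ∃ C : ℝ, 0 ≤ C ∧
    ∀ (R : ℝ) (f : ℝ × ℝ → ℂ), 1 ≤ R → 1 / (4 * r1) ≤ R → Measurable f → (∀ y, ‖f y‖ ≤ 1) →
      (∀ y, y ∉ FI.sq (r1 / 2) → f y = 0) →
    ∫⁻ x in Metric.ball (0 : E3) R, ‖FI.Ext h f x‖ₑ ^ 3 ≤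
      ENNReal.ofReal (C * R ^ (ε - 1)) * ∫⁻ x : E3, ‖FI.Ext h f x‖ₑ ^ 2 * ENNReal.ofReal (((1 + ‖x‖ / R) ^ K)⁻¹) := by
  obtain ⟨C3, hC3, HK⟩ := HK C1 hC1
  obtain ⟨K', hK', HE⟩ := HE (min ε 1) (lt_min hε one_pos)
  obtain ⟨C4, hC4, HE⟩ := HE 0 (max C1 C3) (hC1.trans (le_max_left _ _))
  obtain ⟨B0, hB0, hgb⟩ := gR_bdd
  obtain ⟨CE, hCE, hup⟩ := upp K
  set A : ℝ := 2 ^ (2 * K') with hA
  have hA1 : 1 < A := by
    rw [hA]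
    exact one_lt_pow₀ (by norm_num) (by omega)
  refine ⟨8 * (C4 * Real.sqrt C3 * B0) * (CE * (4 * A) ^ K), by positivity, ?_⟩
  intro R f hR hRr hf hf1 hs
  have hR0 : 0 < R := by linarith
  obtain ⟨n, hn1, hn2⟩ := scale hA1 hR
  have hAn : A ^ n = 2 ^ (2 * K' * n) := by rw [hA, ← pow_mul]
  rw [hAn] at hn1 hn2
  set Rn : ℝ := 2 ^ (2 * K' * n) with hRn
  have hRn0 : 0 < Rn := by positivity
  have hRn1 : 1 ≤ Rn := by linarith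
  have hRnr : 1 / (8 * Rn) ≤ r1 / 2 := by
    rw [div_le_iff₀ (by positivity)] at hRr ⊢
    nlinarith
  set G : E3 → ℂ := gR (tilt h) f Rn with hG
  have hth : Continuous (tilt h) := continuous_tilt hh
  have hGm : Measurable G := measurable_gR hth hf Rn
  have hG1 : Integrable G := memLp_one_iff_integrable.1 (gR_memLp hth hf hRn0 hs hf1 1)
  have hG2 : MemLp G 2 volume := gR_memLp hth hf hRn0 hs hf1 2
  have hGB : ∀ ξ, ‖G ξ‖ ≤ B0 * Rn := fun ξ => by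
    have := hgb (tilt h) f 1 Rn hRn0 hf1 ξ
    rwa [mul_one] at this
  have hnear : ∀ ξ, G ξ ≠ 0 → hz ξ ∈ {y : Fin 2 → ℝ | (y 0, y 1) ∈ FI.sq r1} ∧
      |ξ 2 - (fun y : Fin 2 → ℝ => tilt h (y 0, y 1)) (hz ξ)| ≤ C1 / 2 ^ (2 * K' * n) :=
    fun ξ hξ => gR_near hr1 hC1 hRn0 hRn1 hRnr hS hv hs hξ
  obtain ⟨g, hD, hpie, hkt, henw⟩ := HK _ _ v hS hvc (fun y hy => hv y hy) K' n (B0 * Rn) G (by positivity) hGm hG1 hG2
    hGB hnear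
  have hE : ∫⁻ z in {z : E3 | ∀ i, |z i| ≤ Rn}, ‖pie K' n g 0 0 z‖ₑ ^ 3 ≤
      ENNReal.ofReal (C4 * 2 ^ (min ε 1 * (K' * n)) * Real.sqrt (C3 * (B0 * Rn) ^ 2 * ((2:ℝ) ^ (8 * K' * n))⁻¹)) *
        enw 0 K' n g :=
    HE n _ _ v g (C3 * (B0 * Rn) ^ 2 * ((2:ℝ) ^ (8 * K' * n))⁻¹) (Srf_mono hS hC1 (le_max_left _ _))
      (Dat_mono hD (le_max_right _ _)) (by positivity) (hkt 0)
  have hlow := low hh hf hf1 hs hR0 hn1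
  have hupp := hup h f (r1 / 2) R Rn A hh hf hf1 hs hR0 hRn0 hA1.le hn2
  have hnum := nums (C3 := C3) (C4 := C4) (B0 := B0) (ε := ε) (R := R) (K := K') (n := n) (by linarith) hC4 hB0 hε hR
    (by linarith)
  have e1 : ∫⁻ z in {z : E3 | ∀ i, |z i| ≤ Rn}, ‖𝓕⁻ G z‖ₑ ^ 3 =
      ∫⁻ z in {z : E3 | ∀ i, |z i| ≤ Rn}, ‖pie K' n g 0 0 z‖ₑ ^ 3 := by
    simp_rw [hpie]
  have e8 : (8 : ℝ≥0∞) = ENNReal.ofReal 8 := by norm_num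
  calc ∫⁻ x in Metric.ball (0 : E3) R, ‖FI.Ext h f x‖ₑ ^ 3
      ≤ 8 * ∫⁻ z in {z : E3 | ∀ i, |z i| ≤ Rn}, ‖𝓕⁻ G z‖ₑ ^ 3 := hlow
    _ = 8 * ∫⁻ z in {z : E3 | ∀ i, |z i| ≤ Rn}, ‖pie K' n g 0 0 z‖ₑ ^ 3 := by rw [e1]
    _ ≤ 8 * (ENNReal.ofReal (C4 * Real.sqrt C3 * B0 * R ^ (ε - 1)) *
          (ENNReal.ofReal (CE * (4 * A) ^ K) *
            ∫⁻ x : E3, ‖FI.Ext h f x‖ₑ ^ 2 * ENNReal.ofReal (((1 + ‖x‖ / R) ^ K)⁻¹))) := by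
        refine mul_le_mul_right ?_ _
        refine hE.trans ?_
        refine mul_le_mul' (ENNReal.ofReal_le_ofReal hnum) ?_
        exact (henw 0).trans hupp
    _ = ENNReal.ofReal (8 * (C4 * Real.sqrt C3 * B0) * (CE * (4 * A) ^ K) * R ^ (ε - 1)) *
          ∫⁻ x : E3, ‖FI.Ext h f x‖ₑ ^ 2 * ENNReal.ofReal (((1 + ‖x‖ / R) ^ K)⁻¹) := by
        rw [e8, ← mul_assoc, ← mul_assoc, ← ENNReal.ofReal_mul (by norm_num), ← ENNReal.ofReal_mul (by positivity)]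
        congr 2
        ring

/-- [AN-122] the local estimate -/
theorem loc2_of (K : ℕ) (HE : AN.StE) (HS : StSrfPhase) (HK : StKt) : FI.LOC2 K := by
  intro h hp
  obtain ⟨r1, C1, v, hr1, hC1, hvc, hS, hv⟩ := HS h hp
  have hh : Continuous h := hp.smooth.continuous
  refine ⟨r1 / 2, by positivity, ?_⟩
  intro ε hε
  obtain ⟨Ca, hCa, Ha⟩ := large K hh hr1 hC1 hvc hS hv HE HK hε
  obtain ⟨Cb, hCb, Hb⟩ := small K h (r1 / 2) (max 1 (1 / (4 * r1))) (le_max_left _ _)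
  refine ⟨max Ca Cb, hCa.trans (le_max_left _ _), ?_⟩
  intro R f hR hf hf1 hs
  by_cases hc : R ≤ max 1 (1 / (4 * r1))
  · refine (Hb ε R f hε hR hc hf1 hs).trans ?_
    gcongr
    exact le_max_right _ _
  · have hc' : 1 / (4 * r1) ≤ R := (le_max_right _ _).trans (le_of_lt (not_le.1 hc))
    refine (Ha R f hR hc' hf hf1 hs).trans ?_
    gcongr
    exact le_max_left _ _

end Vale.Agent.P122.H709
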