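import Vale.Agent.P122.FI.Loc2

/-! # AN-122 (3a): the shear of the physical space (helper709)

`Ext (tilt h) f x = Ext h f (shr x)`, `tilt h y = h y - (y.1 + y.2) / 2`,
`shr x = (x 0 - x 2 / 2, x 1 - x 2 / 2, x 2)`; `shr` preserves the volume. -/

open MeasureTheory Complex Set
open scoped ENNReal NNReal ContDiff

set_option linter.all false

namespace Vale.Agent.P122.H709

open Vale.Agent.P122.FI

/-- the tilted phase -/
noncomputable def tilt (h : ℝ × ℝ → ℝ) (y : ℝ × ℝ) : ℝ := h y - (y.1 + y.2) / 2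

/-- the shear of the physical space -/
noncomputable def shr (x : E3) : E3 := !₂[x 0 - x 2 / 2, x 1 - x 2 / 2, x 2]

theorem shr_0 (x : E3) : shr x 0 = x 0 - x 2 / 2 := rfl
theorem shr_1 (x : E3) : shr x 1 = x 1 - x 2 / 2 := rfl
theorem shr_2 (x : E3) : shr x 2 = x 2 := rfl

theorem continuous_tilt {h : ℝ × ℝ → ℝ} (hh : Continuous h) : Continuous (tilt h) := by
  unfold tilt
  fun_prop

theorem Ext_tilt (h : ℝ × ℝ → ℝ) (f : ℝ × ℝ → ℂ) (x : E3) : FI.Ext (tilt h) f x = FI.Ext h f (shr x) := by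
  unfold FI.Ext
  congr 1
  ext y
  congr 3
  rw [shr_0, shr_1, shr_2]
  unfold tilt
  congr 1
  ring

theorem norm_shr_le (x : E3) : ‖shr x‖ ≤ 2 * ‖x‖ := by
  have h1 : ‖shr x‖ ^ 2 ≤ (2 * ‖x‖) ^ 2 := by
    rw [mul_pow, EuclideanSpace.real_norm_sq_eq, EuclideanSpace.real_norm_sq_eq, Fin.sum_univ_three,
      Fin.sum_univ_three]
    rw [shr_0, shr_1, shr_2]
    nlinarith [sq_nonneg (x 0 + x 2 / 2), sq_nonneg (x 1 + x 2 / 2), sq_nonneg (x 0), sq_nonneg (x 1), sq_nonneg (x 2)]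
  exact le_of_sq_le_sq h1 (by positivity)

theorem norm_le_shr (x : E3) : ‖x‖ ≤ 2 * ‖shr x‖ := by
  have h1 : ‖x‖ ^ 2 ≤ (2 * ‖shr x‖) ^ 2 := by
    rw [mul_pow, EuclideanSpace.real_norm_sq_eq, EuclideanSpace.real_norm_sq_eq, Fin.sum_univ_three,
      Fin.sum_univ_three]
    rw [shr_0, shr_1, shr_2]
    nlinarith [sq_nonneg (x 0 - x 2), sq_nonneg (x 1 - x 2), sq_nonneg (3 * x 0 - 2 * x 2), sq_nonneg (3 * x 1 - 2 * x 2), sq_nonneg (x 2)]
  exact le_of_sq_le_sq h1 (by positivity)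

/-- the shear as a linear map -/
noncomputable def shrL : E3 →ₗ[ℝ] E3 where
  toFun := shr
  map_add' := by
    intro x y
    ext i
    fin_cases i <;> simp [shr] <;> ring
  map_smul' := by
    intro c x
    ext i
    fin_cases i <;> simp [shr] <;> ring

theorem det_shrL : LinearMap.det shrL = 1 := by
  rw [← LinearMap.det_toMatrix (EuclideanSpace.basisFun (Fin 3) ℝ).toBasis]
  rw [Matrix.det_fin_three]
  simp [LinearMap.toMatrix_apply, shrL, shr]

theorem measurePreserving_shr : MeasurePreserving shr (volume : Measure E3) volume := by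
  have hc : Continuous shrL := LinearMap.continuous_of_finiteDimensional shrL
  refine ⟨hc.measurable, ?_⟩
  have h1 := Measure.map_linearMap_addHaar_eq_smul_addHaar (μ := (volume : Measure E3)) (f := shrL)
    (by rw [det_shrL]; exact one_ne_zero)
  rw [det_shrL] at h1
  have h2 : Measure.map shr (volume : Measure E3) = Measure.map shrL volume := rfl
  rw [h2, h1]
  simp

theorem lintegral_shr (F : E3 → ℝ≥0∞) (hF : Measurable F) : ∫⁻ x, F (shr x) = ∫⁻ x, F x :=
  measurePreserving_shr.lintegral_comp hF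

end Vale.Agent.P122.H709
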