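import Vale.Agent.P122.H709.Loc4
import Vale.Agent.P122.AN193.Srf

/-! # AN-122 (3): `StSrfPhase` from `AN193.srf_phase` (helper709) -/

open MeasureTheory Complex Set
open scoped ENNReal NNReal ContDiff FourierTransform

set_option linter.all false

namespace Vale.Agent.P122.H709

open Vale.Agent.P122.FI Vale.Agent.P122.C2
open Vale.Agent.P122.AN hiding E3

theorem continuous_pp : Continuous AN193.pp := by
  unfold AN193.pp
  fun_prop

theorem continuous_vq {h : ℝ × ℝ → ℝ} (hh : ContDiff ℝ ∞ h) : Continuous (AN193.vq h) := by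
  unfold AN193.vq
  refine continuous_pi fun k => ?_
  refine continuous_const.sub ?_
  have h1 : Continuous (fderiv ℝ h) := hh.continuous_fderiv (by simp)
  exact (h1.comp continuous_pp).clm_apply continuous_const

/-- the surface of a phase -/
theorem srf_of_phase : StSrfPhase := by
  intro h hp
  obtain ⟨r, hr, hr1, C, hC, hg, hS, hv⟩ := AN193.srf_phase hp
  exact ⟨r, C, AN193.vq h, hr, hC, continuous_vq hp.smooth, hS, fun y hy k => hv y hy k⟩

/-- [AN-122] up to the cut pieces -/
theorem loc2_of_kt (K : ℕ) (HE : AN.StE) (HK : StKt) : FI.LOC2 K := loc2_of K HE srf_of_phase HK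

end Vale.Agent.P122.H709
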